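import Mathlib.Logic.Basic

/-
# P032: what is left after P032.CommonColours, and how its certificates were made

Working notes only, no theorem of its own here.

## The remaining configuration

`P032.CommonColours` rests on: the frame `WT U T` (an irredundant palette map `T`, structure `Irr`, in
which two points of order > 3 at distance one share at most TWO colours) is impossible for minimal
palettes (`MinF`, `Mn`).  So in every frame there is a LOCK: points x, y at distance one, both with at
least four colours, with at least three common colours.  If locks are impossible too, seven colours
are needed for every proper colouring of the plane.

Facts about locks that were found but not typed:
* two harmless points x, y with |x - y| = 1 and T x = T y = A u B (disjoint pairs): the unit circle of
  x has exactly the palette A near y, that of y exactly B near x; no colour outside T x occurs on the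
  circle of x except near y and near 2x - y; the two common neighbours of x and y have palettes inside
  the two missing colours together with at most one more colour;
* three common colours, T x = abcd, T y = abce: near y the circle of x has palettes inside abce whose
  one-coloured points have colour e only, near x the circle of y the same with d;
* number k of locks at one centre (search by helper903, rules that do not depend on the choice of T, no
  further special point on the circle): k = 1, kind X: 14 of 16 label vectors are refuted, kind r: 10 of
  16; k = 2, 3, 4: about two thirds; the survivors for k = 1 are of the type 0122, 0123.

The rule `both` for a centre of kind R, the rule on common colours of two three-coloured points at
distance one and the flank rules of S4 contacts are proved in the frame `WT` only.  They are NOT theorems in the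
presence of locks; every search which uses them must be redone.

## The pipeline that closed the frame WT

1. One writes the geometry of two or three unit circles about special points as a finite transition
   system.  State: for each circle the letters (palettes) at its six points at angle 60 degrees, the
   palettes of the named points, label bits (on which side a colour comes in), all frozen copies of the
   first state.  Step: rotation to the next change.  Goal: a full turn by 60 degrees (the six points
   are permuted cyclically) cannot close up.  Sound language and checker: `R2/H741/Tp*`, `R2/H805/Step`,
   `Rup`, `Blk`, `Cov`; roots `R2/H137/Roots`; semantics `SemAt` and assembly by helper264, frames by
   helper609 and helper659.
2. A certificate is an inductive invariant: a list of clauses true at the start, preserved by every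
   step and excluding the goal.  Found by IC3 / PDR with inductive generalisation through
   counterexamples to generalisation (CTG 3 to 12, depth 2 or 3), in rounds of 4 runs with random
   seeds; between two rounds the union of all learned clauses is cut down to its largest inductive
   subset (Houdini, with ONE satisfiability query for the disjunction of all violations, pools of
   200000 clauses in seconds) and given back as lemmas.  At the start all inductive unary and binary
   clauses are added in the same way.  Hard cases: one unseeded run of 5 to 15 minutes.
3. Split on the start word of ONE circle only (10 cases with the mirror image, 60 to 850 clauses each).
   The split on pairs of start words (352 cases) gives 63000 clauses in all.  When some cases are
   done, the union of their invariants is the right pool for the next case: the last one (efPfQf) was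
   closed in one minute without a new clause.
4. Minimisation: greedy removal with cascade (drop a clause, then all clauses which are no longer
   inductive, keep if the goal stays excluded), several random orders, union of several invariants
   first.
5. Lean text: all clauses of one case in ONE shared derivation (incremental solver with logged hints,
   backward trimming): 300 to 450 hints per clause, 0.13 ms of kernel time per hint, one table per
   case.  Clause by clause extraction is ten times larger.

Suggested next step: the language of step 1 with one more letter for a locked point; root: one lock
(x, y), circles of x, of y and of one common neighbour; hypotheses: all facts of `Irr`, `Mn` that are
proved without `WT`.  The bounded search says that rings z, y, the point ce|df on the circle of y and
the point abf on the circle of z suffice for the class 0123 (16 of its 26 start words were refuted for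
all times, invariants of 25 to 155 clauses, with the rules which still have to be justified).
-/
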